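import Vale.Agent.P042.H92.PDef

set_option autoImplicit false

/-!
P042, power regime: the index frame (`H92.Scl`) for the typed primes `K0 < q ≤ P ^ C1`
(`P = exp p`), without and with one extra site.
-/

namespace Vale.Agent.P042.H883

open Finset Vale.Agent.P042.H92

/-- the typed primes -/
noncomputable def Typ (K0 : ℕ) (C1 P : ℝ) : Finset ℕ :=
  (range (⌊P ^ C1⌋₊ + 1)).filter fun q => q.Prime ∧ K0 < q

/-- lowest scale -/
def nlo (K0 : ℕ) : ℕ := Nat.clog 2 (K0 + 1)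

/-- highest scale -/
noncomputable def nhi (K0 : ℕ) (C1 P : ℝ) : ℕ := max (nlo K0) (Nat.clog 2 ⌊P ^ C1⌋₊)

/-- the scales -/
abbrev JT (K0 : ℕ) (C1 P : ℝ) : Type := {n : ℕ // n ∈ Icc (nlo K0) (nhi K0 C1 P)}

/-- the index of a scale -/
def snT {K0 : ℕ} {C1 P : ℝ} (j : JT K0 C1 P) : ℕ := j.1

/-- the size of a scale -/
noncomputable def ellT {K0 : ℕ} {C1 P : ℝ} (j : JT K0 C1 P) : ℝ := (j.1 : ℝ) * Real.log 2

theorem clog_mem {K0 : ℕ} {C1 P : ℝ} {q : ℕ} (hq : q ∈ Typ K0 C1 P) :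
    Nat.clog 2 q ∈ Icc (nlo K0) (nhi K0 C1 P) := by
  rw [Typ, mem_filter, mem_range] at hq
  rw [mem_Icc]
  refine ⟨Nat.clog_mono_right 2 (by omega), le_trans ?_ (le_max_right _ _)⟩
  exact Nat.clog_mono_right 2 (by omega)

/-- the scale of a typed prime -/
def scT {K0 : ℕ} {C1 P : ℝ} (i : {q // q ∈ Typ K0 C1 P}) : JT K0 C1 P :=
  ⟨Nat.clog 2 i.1, clog_mem i.2⟩

/-- the scale of a site, with one extra site -/
def scO {K0 : ℕ} {C1 P : ℝ} (i : Option {q // q ∈ Typ K0 C1 P}) : JT K0 C1 P :=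
  i.elim ⟨nlo K0, by rw [mem_Icc]; exact ⟨le_rfl, le_max_left _ _⟩⟩ scT

/-- the prime of a site -/
def vT {K0 : ℕ} {C1 P : ℝ} (i : {q // q ∈ Typ K0 C1 P}) : ℕ := i.1

/-- the modulus of a site, with one extra site of size `m` -/
def vO {K0 : ℕ} {C1 P : ℝ} (m : ℕ) (i : Option {q // q ∈ Typ K0 C1 P}) : ℕ := i.elim m vT

/-- dyadic size of a number -/
noncomputable def esN (q : ℕ) : ℝ := (Nat.clog 2 q : ℝ) * Real.log 2

theorem log_le_esN {q : ℕ} (hq : 1 ≤ q) : Real.log q ≤ esN q := by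
  have h1 : q ≤ 2 ^ Nat.clog 2 q := Nat.le_pow_clog (by norm_num) q
  have h2 : (q : ℝ) ≤ 2 ^ Nat.clog 2 q := by exact_mod_cast h1
  have h3 := Real.log_le_log (by exact_mod_cast hq) h2
  rwa [Real.log_pow] at h3

theorem esN_le_log {q : ℕ} (hq : 1 < q) : esN q - Real.log 2 ≤ Real.log q := by
  have h1 : 2 ^ (Nat.clog 2 q).pred < q := Nat.pow_pred_clog_lt_self (by norm_num) hq
  have h0 : 0 < Nat.clog 2 q := Nat.clog_pos (by norm_num) hq
  have h2 : (2 : ℝ) ^ (Nat.clog 2 q).pred ≤ q := by exact_mod_cast h1.le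
  have h3 := Real.log_le_log (by positivity) h2
  rw [Real.log_pow, Nat.pred_eq_sub_one, Nat.cast_sub h0, Nat.cast_one] at h3
  unfold esN
  linarith

/-- number of the elements of one scale -/
theorem card_scale {ι : Type*} (S : Finset ι) (f : ι → ℕ) (hf : ∀ i ∈ S, 1 ≤ f i)
    (hinj : ∀ i ∈ S, ∀ j ∈ S, f i = f j → i = j) (x : ℝ) :
    ((S.filter fun i => esN (f i) = x).card : ℝ) ≤ Real.exp x := by
  classical
  rcases (S.filter fun i => esN (f i) = x).eq_empty_or_nonempty with h | ⟨i0, hi0⟩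
  · rw [h]
    simp only [card_empty, Nat.cast_zero]
    exact (Real.exp_pos _).le
  · rw [mem_filter] at hi0
    obtain ⟨n, hn⟩ : ∃ n, n = Nat.clog 2 (f i0) := ⟨_, rfl⟩
    have hx : x = (n : ℝ) * Real.log 2 := by rw [← hi0.2, hn]; rfl
    have hexp : Real.exp x = 2 ^ n := by
      rw [hx, mul_comm, Real.exp_mul, Real.exp_log (by norm_num), Real.rpow_natCast]
    have hcard : (S.filter fun i => esN (f i) = x).card ≤ (Icc 1 (2 ^ n)).card := by
      refine card_le_card_of_injOn f ?_ ?_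
      · intro i hi
        have hi' := mem_filter.1 (mem_coe.1 hi)
        have h1 : (Nat.clog 2 (f i) : ℝ) * Real.log 2 = (n : ℝ) * Real.log 2 := by
          rw [← hx]; exact hi'.2
        have h2 : (Nat.clog 2 (f i) : ℝ) = n :=
          mul_right_cancel₀ (Real.log_pos (by norm_num)).ne' h1
        have h3 : Nat.clog 2 (f i) = n := by exact_mod_cast h2
        rw [mem_coe, mem_Icc]
        exact ⟨hf i hi'.1, h3 ▸ Nat.le_pow_clog (by norm_num) (f i)⟩
      · intro i hi j hj h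
        exact hinj i (mem_filter.1 (mem_coe.1 hi)).1 j (mem_filter.1 (mem_coe.1 hj)).1 h
    rw [Nat.card_Icc, Nat.add_sub_cancel] at hcard
    rw [hexp]
    exact_mod_cast hcard

theorem le_nlo {K0' K0 : ℕ} (h : 2 ^ K0' ≤ K0) : K0' ≤ nlo K0 := by
  unfold nlo
  have h1 : K0 + 1 ≤ 2 ^ Nat.clog 2 (K0 + 1) := Nat.le_pow_clog (by norm_num) _
  have h2 : 2 ^ K0' < 2 ^ Nat.clog 2 (K0 + 1) := by omega
  exact ((Nat.pow_lt_pow_iff_right (by norm_num)).1 h2).le

theorem nhi_le {K0 : ℕ} {C1 p : ℝ} (hC : 0 ≤ C1 * p)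
    (hK : (nlo K0 : ℝ) * Real.log 2 ≤ C1 * p + 1) :
    (nhi K0 C1 (Real.exp p) : ℝ) * Real.log 2 ≤ C1 * p + 1 := by
  unfold nhi
  rcases le_total (nlo K0) (Nat.clog 2 ⌊Real.exp p ^ C1⌋₊) with h | h
  · rw [max_eq_right h]
    have hl2 : Real.log 2 ≤ 1 := by
      have := Real.log_two_lt_d9
      linarith
    have he : Real.exp p ^ C1 = Real.exp (C1 * p) := by
      rw [← Real.exp_mul, mul_comm]
    rcases Nat.lt_or_ge 1 ⌊Real.exp p ^ C1⌋₊ with h1 | h1
    · have h2 := esN_le_log h1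
      have h3 : ((⌊Real.exp p ^ C1⌋₊ : ℕ) : ℝ) ≤ Real.exp (C1 * p) := by
        rw [he]
        exact Nat.floor_le (Real.exp_pos _).le
      have h4 := Real.log_le_log (by positivity) h3
      rw [Real.log_exp] at h4
      unfold esN at h2
      linarith
    · have h2 : Nat.clog 2 ⌊Real.exp p ^ C1⌋₊ = 0 := Nat.clog_of_right_le_one h1 2
      rw [h2]
      simp only [Nat.cast_zero, zero_mul]
      linarith
  · rw [max_eq_left h]
    exact hK

theorem snT_inj {K0 : ℕ} {C1 P : ℝ} : Function.Injective (snT : JT K0 C1 P → ℕ) :=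
  fun _ _ h => Subtype.ext h

theorem snT_lo {K0' K0 : ℕ} {C1 P : ℝ} (h : 2 ^ K0' ≤ K0) (j : JT K0 C1 P) : K0' ≤ snT j :=
  (le_nlo h).trans (mem_Icc.1 j.2).1

theorem ellT_le {K0 : ℕ} {C1 p : ℝ} (hC : 0 ≤ C1 * p)
    (hK : (nlo K0 : ℝ) * Real.log 2 ≤ C1 * p + 1) (j : JT K0 C1 (Real.exp p)) :
    ellT j ≤ C1 * p + 1 := by
  refine le_trans ?_ (nhi_le hC hK)
  have h1 : (j.1 : ℝ) ≤ (nhi K0 C1 (Real.exp p) : ℝ) := by exact_mod_cast (mem_Icc.1 j.2).2
  exact mul_le_mul_of_nonneg_right h1 (Real.log_pos (by norm_num)).le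

theorem typ_gt {K0 : ℕ} {C1 P : ℝ} (i : {q // q ∈ Typ K0 C1 P}) : 1 < i.1 :=
  (mem_filter.1 i.2).2.1.one_lt

/-- **the frame of the typed primes** -/
theorem scl_typ (Q : Prm) {K0' K0 : ℕ} (h : 2 ^ K0' ≤ K0) (hC : 0 ≤ Q.C1 * Q.p)
    (hK : (nlo K0 : ℝ) * Real.log 2 ≤ Q.C1 * Q.p + 1) :
    Scl Q K0' (univ : Finset {q // q ∈ Typ K0 Q.C1 (Real.exp Q.p)}) (fun i => Real.log (i.1 : ℝ))
      (fun i => esN i.1) scT snT ellT := by
  refine ⟨snT_inj, fun j => rfl, fun j => snT_lo h j, fun j => ellT_le hC hK j, fun i _ => rfl,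
    fun i _ => ?_, fun i _ => ?_, fun x => ?_⟩
  · exact esN_le_log (typ_gt i)
  · exact log_le_esN (typ_gt i).le
  · have h1 : ∀ i ∈ (univ : Finset {q // q ∈ Typ K0 Q.C1 (Real.exp Q.p)}), 1 ≤ vT i :=
      fun i _ => (typ_gt i).le
    have h2 : ∀ i ∈ (univ : Finset {q // q ∈ Typ K0 Q.C1 (Real.exp Q.p)}), ∀ j ∈
        (univ : Finset {q // q ∈ Typ K0 Q.C1 (Real.exp Q.p)}), vT i = vT j → i = j :=
      fun i _ j _ h => Subtype.ext h
    have h3 := card_scale univ vT h1 h2 x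
    exact h3

/-- log of the size of the alphabets, with one extra site of size `m` -/
noncomputable def lenO {K0 : ℕ} {C1 P : ℝ} (m : ℕ) (i : Option {q // q ∈ Typ K0 C1 P}) : ℝ :=
  i.elim (Real.log m) fun q => Real.log (q.1 : ℝ)

/-- dyadic sizes, with one extra site of size `m` -/
noncomputable def esO {K0 : ℕ} {C1 P : ℝ} (m : ℕ) (i : Option {q // q ∈ Typ K0 C1 P}) : ℝ :=
  i.elim (esN m) fun q => esN q.1

/-- **the frame of the typed primes with one extra site** -/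
theorem scl_opt (Q : Prm) {K0' K0 : ℕ} (m : ℕ) (h : 2 ^ K0' ≤ K0) (hC : 0 ≤ Q.C1 * Q.p)
    (hK : (nlo K0 : ℝ) * Real.log 2 ≤ Q.C1 * Q.p + 1) :
    Scl Q K0' ((univ : Finset (Option {q // q ∈ Typ K0 Q.C1 (Real.exp Q.p)})).erase none)
      (lenO m) (esO m) scO snT ellT := by
  refine ⟨snT_inj, fun j => rfl, fun j => snT_lo h j, fun j => ellT_le hC hK j, ?_, ?_, ?_,
    fun x => ?_⟩
  · intro i hi
    rcases i with _ | i
    · exact absurd rfl (ne_of_mem_erase hi)
    · rfl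
  · intro i hi
    rcases i with _ | i
    · exact absurd rfl (ne_of_mem_erase hi)
    · exact esN_le_log (typ_gt i)
  · intro i hi
    rcases i with _ | i
    · exact absurd rfl (ne_of_mem_erase hi)
    · exact log_le_esN (typ_gt i).le
  · classical
    have hf : ∀ i : Option {q // q ∈ Typ K0 Q.C1 (Real.exp Q.p)}, esO m i = esN (vO m i) := by
      intro i
      rcases i with _ | i <;> rfl
    have h1 : ∀ i ∈ ((univ : Finset (Option {q // q ∈ Typ K0 Q.C1 (Real.exp Q.p)})).erase none),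
        1 ≤ vO m i := by
      intro i hi
      rcases i with _ | i
      · exact absurd rfl (ne_of_mem_erase hi)
      · exact (typ_gt i).le
    have h2 : ∀ i ∈ ((univ : Finset (Option {q // q ∈ Typ K0 Q.C1 (Real.exp Q.p)})).erase none),
        ∀ j ∈ ((univ : Finset (Option {q // q ∈ Typ K0 Q.C1 (Real.exp Q.p)})).erase none),
        vO m i = vO m j → i = j := by
      intro i hi j hj hij
      rcases i with _ | i
      · exact absurd rfl (ne_of_mem_erase hi)
      · rcases j with _ | j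
        · exact absurd rfl (ne_of_mem_erase hj)
        · exact congrArg some (Subtype.ext hij)
    have h3 := card_scale _ (vO m) h1 h2 x
    have h4 : (((univ : Finset (Option {q // q ∈ Typ K0 Q.C1 (Real.exp Q.p)})).erase none).filter
        fun i => esO m i = x) = (((univ : Finset (Option
        {q // q ∈ Typ K0 Q.C1 (Real.exp Q.p)})).erase none).filter
        fun i => esN (vO m i) = x) := by
      apply filter_congr
      intro i _
      rw [hf i]
    rw [h4]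
    exact h3

end Vale.Agent.P042.H883
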