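import Vale.Agent.P042.H121.F1d

set_option autoImplicit false

/-!
P042, power regime: the hypotheses (F1*), (A*) and the membership of the small sets of `H85.pfin`
for the families `FB B = (FBa .. 1 B).re`, `FM m B = (FBa .. m B).re`, `DD = DDm .. 1`.
-/

namespace Vale.Agent.P042.H883

open Polynomial Finset
open Vale.Agent.P042.H121 (DDm)
open Vale.Agent.P042.H85 (FBa)

section

variable {α J : Type} [Fintype α] [DecidableEq α] [Fintype J] [DecidableEq J] {ty : α → J}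
  {lo : α → Prop} [DecidablePred lo] {prm : α → ℕ} {g : ℤ[X]} {PP : Finset ℕ}
  {S1 S2 : Finset ℤ} {f f' : ℤ → ℝ} {Kf : {i // lo i} → ℤ → ℤ → ℝ} {m0 M0 : ℕ}

omit [Fintype J] [DecidableEq J] in
/-- the real parts are at most the norms -/
theorem sum_re_le (𝓜 : Finset ℕ) {r : J → ℝ} (hr : ∀ j, 0 ≤ r j) :
    ∑ m ∈ 𝓜, ∑ B ∈ DDm lo prm m0 M0 m, |(FBa g PP S1 S2 f f' prm lo Kf m B).re| *
        ∏ i ∈ B, r (ty i) ≤
      ∑ m ∈ 𝓜, ∑ B ∈ DDm lo prm m0 M0 m, ‖FBa g PP S1 S2 f f' prm lo Kf m B‖ *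
        ∏ i ∈ B, r (ty i) :=
  sum_le_sum fun m _ => sum_le_sum fun B _ =>
    mul_le_mul_of_nonneg_right (Complex.abs_re_le_norm _) (prod_nonneg fun i _ => hr _)

omit [DecidableEq J] in
/-- **(F1*) of `H85.pfin`** at one vector of radii, from the conclusion of `H121.f1_full` at
`𝓜 = {1}` -/
theorem f1_pfin {r Bd : J → ℝ} (hr : ∀ j, 0 ≤ r j) {C : ℝ}
    (h : ∑ m ∈ ({1} : Finset ℕ), ∑ B ∈ DDm lo prm m0 M0 m,
        ‖FBa g PP S1 S2 f f' prm lo Kf m B‖ * ∏ i ∈ B, r (ty i) ≤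
      1 * Real.exp (C + ∑ j, Bd j * (r j + r j ^ 2))) :
    ∑ B ∈ DDm lo prm m0 M0 1, |(FBa g PP S1 S2 f f' prm lo Kf 1 B).re| * ∏ i ∈ B, r (ty i) ≤
      Real.exp (C + ∑ j, Bd j * (r j + r j ^ 2)) := by
  have h1 := (sum_re_le (ty := ty) (g := g) (PP := PP) (S1 := S1) (S2 := S2) (f := f) (f' := f')
    (Kf := Kf) (prm := prm) (m0 := m0) (M0 := M0) {1} hr).trans h
  rw [sum_singleton, one_mul] at h1
  exact h1

omit [DecidableEq J] in
/-- **(A*) of `H85.pfin`** at one `Z` and one vector of radii, from the conclusion of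
`H121.f1_full` at `𝓜 = M.filter (Z < ·)` -/
theorem a_pfin {r Bd : J → ℝ} (hr : ∀ j, 0 ≤ r j) {C δ c4 Z gn : ℝ} (M : Finset ℕ)
    (hgn : gn ≤ δ * Real.exp (-(c4 * Real.log Z)))
    (h : ∑ m ∈ M.filter (fun m : ℕ => Z < (m : ℝ)), ∑ B ∈ DDm lo prm m0 M0 m,
        ‖FBa g PP S1 S2 f f' prm lo Kf m B‖ * ∏ i ∈ B, r (ty i) ≤
      gn * Real.exp (C + ∑ j, Bd j * (r j + r j ^ 2))) :
    ∑ m ∈ M.filter (fun m : ℕ => Z < (m : ℝ)), ∑ B ∈ DDm lo prm m0 M0 m,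
        |(FBa g PP S1 S2 f f' prm lo Kf m B).re| * ∏ i ∈ B, r (ty i) ≤
      δ * Real.exp (-(c4 * Real.log Z)) * Real.exp (C + ∑ j, Bd j * (r j + r j ^ 2)) :=
  ((sum_re_le (ty := ty) (g := g) (PP := PP) (S1 := S1) (S2 := S2) (f := f) (f' := f')
    (Kf := Kf) (prm := prm) (m0 := m0) (M0 := M0) _ hr).trans h).trans
    (mul_le_mul_of_nonneg_right hgn (Real.exp_pos _).le)

omit [DecidableEq α] in
/-- the small sets belong to the family -/
theorem mem_DDm_of [DecidableEq α] {m b0 : ℕ} {L : ℝ} (hprm : ∀ i, 1 ≤ prm i)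
    (hL : ∀ i, Real.log (prm i) ≤ L) (hL0 : 0 ≤ L) (hm : 1 ≤ m) (hm0 : b0 ≤ m0) {X : ℝ}
    (hX : b0 * L + Real.log m ≤ X) (hM0 : ⌊Real.exp X⌋₊ ≤ M0) {B : Finset α}
    (hB : B.card ≤ b0) : B ∈ DDm lo prm m0 M0 m := by
  unfold DDm
  rw [mem_filter]
  refine ⟨mem_univ _, ?_, ?_⟩
  · have h1 : (B.subtype lo).card = (B.filter lo).card := card_subtype lo B
    have h2 : (B.filter lo).card ≤ B.card := card_filter_le _ _
    omega
  · refine le_trans (Nat.le_floor ?_) hM0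
    have hmp : (0 : ℝ) < m := by exact_mod_cast hm
    have hpp : ∀ i, (0 : ℝ) < prm i := fun i => by exact_mod_cast hprm i
    have hP : (0 : ℝ) < ∏ i ∈ B.filter (fun i => ¬ lo i), (prm i : ℝ) :=
      prod_pos fun i _ => hpp i
    push_cast
    rw [← Real.log_le_iff_le_exp (mul_pos hP hmp), Real.log_mul hP.ne' hmp.ne',
      Real.log_prod fun i _ => (hpp i).ne']
    have h3 : ∑ i ∈ B.filter (fun i => ¬ lo i), Real.log (prm i) ≤ b0 * L := by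
      refine (sum_le_card_nsmul _ _ L fun i _ => hL i).trans ?_
      rw [nsmul_eq_mul]
      refine mul_le_mul_of_nonneg_right ?_ hL0
      exact_mod_cast (card_filter_le _ _).trans hB
    linarith

/-- **`hDD`, `hDDm` of `H85.pfin`** in the numbers of `H258.pfin_numbers` -/
theorem mem_DDm_num {m b0 : ℕ} {C1 p θ d1 : ℝ} (hprm : ∀ i, 1 ≤ prm i)
    (hL : ∀ i, Real.log (prm i) ≤ C1 * p) (hC : 0 ≤ C1 * p) (hm : 1 ≤ m)
    (hml : Real.log m ≤ Real.exp (2 * d1 * p))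
    (h1 : (b0 : ℝ) + 1 ≤ θ * Real.exp p / p)
    (h2 : b0 * (C1 * p + 1) + Real.exp (2 * d1 * p) + 1 ≤ θ * Real.exp p) {B : Finset α}
    (hB : B.card ≤ b0) :
    B ∈ DDm lo prm ⌊θ * Real.exp p / p⌋₊ ⌊Real.exp (θ * Real.exp p)⌋₊ m := by
  refine mem_DDm_of hprm hL hC hm (Nat.le_floor (by linarith)) (X := θ * Real.exp p) ?_ le_rfl hB
  have h3 : (0 : ℝ) ≤ b0 := Nat.cast_nonneg _
  nlinarith

end

end Vale.Agent.P042.H883
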