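import Vale.Agent.P042.H883.Frame
import Vale.Agent.P042.H860.Inst

set_option autoImplicit false

/-!
P042, power regime: the index frame `H92.Scl` in the letters of `H860.Inst` (sites
`Si K0 C1 P`, sizes in terms of `P`), ordinary and with one super-modulus.
-/

namespace Vale.Agent.P042.H883

open Finset Vale.Agent.P042.H92
open Vale.Agent.P042.H860 (Si mo)

variable {K0 : ℕ} {C1 P : ℝ}

theorem typ_eq : H860.Typ K0 C1 P = Typ K0 C1 P := rfl

/-- the scale of a site -/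
def scI (i : Si K0 C1 P) : JT K0 C1 P := scT ⟨i.1, i.2⟩

/-- the scale of a site, with one extra site -/
def scIO (i : Option (Si K0 C1 P)) : JT K0 C1 P :=
  i.elim ⟨nlo K0, by rw [mem_Icc]; exact ⟨le_rfl, le_max_left _ _⟩⟩ scI

theorem two_le_nlo (h : 2 ≤ K0) : 2 ≤ nlo K0 := by
  unfold nlo
  have h1 : Nat.clog 2 3 ≤ Nat.clog 2 (K0 + 1) := Nat.clog_mono_right 2 (by omega)
  have h2 : Nat.clog 2 3 = 2 := by decide
  omega

theorem ellT_ge_nlo (j : JT K0 C1 P) : (nlo K0 : ℝ) * Real.log 2 ≤ ellT j := by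
  have h1 : (nlo K0 : ℝ) ≤ (j.1 : ℝ) := by exact_mod_cast (mem_Icc.1 j.2).1
  exact mul_le_mul_of_nonneg_right h1 (Real.log_pos (by norm_num)).le

/-- the scales are large -/
theorem ellT_ge (j : JT K0 C1 P) : Real.log (K0 + 1) ≤ ellT j := by
  refine le_trans ?_ (ellT_ge_nlo j)
  have h1 := log_le_esN (q := K0 + 1) (by omega)
  unfold esN at h1
  push_cast at h1
  exact h1

/-- **the frame of the sites** -/
theorem scl_si (Q : Prm) (hC1 : Q.C1 = C1) (hP : 0 < P) (hp : Q.p = Real.log P) {K0' : ℕ}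
    (h : 2 ^ K0' ≤ K0) (hC : 0 ≤ Q.C1 * Q.p)
    (hK : (nlo K0 : ℝ) * Real.log 2 ≤ Q.C1 * Q.p + 1) :
    Scl Q K0' (univ : Finset (Si K0 C1 P)) (fun i => Real.log (i.1 : ℝ)) (fun i => esN i.1)
      scI snT ellT := by
  have hP' : P = Real.exp Q.p := by rw [hp, Real.exp_log hP]
  subst hC1
  subst hP'
  exact scl_typ Q h hC hK

/-- the same, in the letters of the family with one super-modulus of size `m` -/
theorem scl_si_some (Q : Prm) (hC1 : Q.C1 = C1) (hP : 0 < P) (hp : Q.p = Real.log P) {K0' : ℕ}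
    (m : ℕ) (h : 2 ^ K0' ≤ K0) (hC : 0 ≤ Q.C1 * Q.p)
    (hK : (nlo K0 : ℝ) * Real.log 2 ≤ Q.C1 * Q.p + 1) :
    Scl Q K0' (univ : Finset (Si K0 C1 P))
      (fun i => Real.log (mo (fun i : Si K0 C1 P => i.1) m (some i) : ℕ))
      (fun i => esN (mo (fun i : Si K0 C1 P => i.1) m (some i))) scI snT ellT :=
  scl_si Q hC1 hP hp h hC hK

/-- **the frame of the sites with one super-modulus** of size `m` -/
theorem scl_si_opt (Q : Prm) (hC1 : Q.C1 = C1) (hP : 0 < P) (hp : Q.p = Real.log P) {K0' : ℕ}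
    (m : ℕ) (h : 2 ^ K0' ≤ K0) (hC : 0 ≤ Q.C1 * Q.p)
    (hK : (nlo K0 : ℝ) * Real.log 2 ≤ Q.C1 * Q.p + 1) :
    Scl Q K0' ((univ : Finset (Option (Si K0 C1 P))).erase none)
      (fun i => Real.log (mo (fun i : Si K0 C1 P => i.1) m i : ℕ))
      (fun i => esN (mo (fun i : Si K0 C1 P => i.1) m i)) scIO snT ellT := by
  have hP' : P = Real.exp Q.p := by rw [hp, Real.exp_log hP]
  subst hC1
  subst hP'
  have h1 := scl_opt Q m h hC hK
  have e1 : (lenO m : Option {q // q ∈ Typ K0 Q.C1 (Real.exp Q.p)} → ℝ) =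
      fun i => Real.log (mo (fun i : Si K0 Q.C1 (Real.exp Q.p) => i.1) m i : ℕ) := by
    funext i
    cases i <;> rfl
  have e2 : (esO m : Option {q // q ∈ Typ K0 Q.C1 (Real.exp Q.p)} → ℝ) =
      fun i => esN (mo (fun i : Si K0 Q.C1 (Real.exp Q.p) => i.1) m i) := by
    funext i
    cases i <;> rfl
  have e3 : (scO : Option {q // q ∈ Typ K0 Q.C1 (Real.exp Q.p)} → JT K0 Q.C1 (Real.exp Q.p)) =
      scIO := by
    funext i
    cases i <;> rfl
  rw [e1, e2, e3] at h1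
  exact h1

/-- sizes of a site -/
theorem es_site (i : Si K0 C1 P) :
    esN i.1 - Real.log 2 ≤ Real.log i.1 ∧ Real.log i.1 ≤ esN i.1 ∧
      ellT (scI i) = esN i.1 ∧ Real.log (K0 + 1) ≤ esN i.1 :=
  ⟨esN_le_log (typ_gt ⟨i.1, i.2⟩), log_le_esN (typ_gt ⟨i.1, i.2⟩).le, rfl, ellT_ge (scI i)⟩

/-- the scale of a site below `P ^ x` -/
theorem es_le_of {x : ℝ} (hP : 0 < P) {q : ℕ} (h1 : 1 < q) (h : q ≤ ⌊P ^ x⌋₊) :
    esN q ≤ x * Real.log P + Real.log 2 := by
  have h2 := esN_le_log h1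
  have h3 : (q : ℝ) ≤ P ^ x :=
    (Nat.le_floor_iff (Real.rpow_nonneg hP.le _)).1 h
  have h4 := Real.log_le_log (by positivity) h3
  rw [Real.log_rpow hP] at h4
  linarith

/-- the scale of a site above `P ^ x` -/
theorem lt_es_of {x : ℝ} (hP : 0 < P) {q : ℕ} (h1 : 1 ≤ q) (h : ¬ q ≤ ⌊P ^ x⌋₊) :
    x * Real.log P < esN q := by
  rw [not_le] at h
  have h3 : P ^ x < q := (Nat.floor_lt (Real.rpow_nonneg hP.le _)).1 h
  have h4 := Real.log_lt_log (Real.rpow_pos_of_pos hP _) h3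
  rw [Real.log_rpow hP] at h4
  exact h4.trans_le (log_le_esN h1)

/-- **`lo1` of `H92.PPair`** for the low sites of the integer side -/
theorem lo1_site {kap : ℝ} (hP : 0 < P) (i : Si K0 C1 P) (h : i.1 ∈ H739.Wst K0 kap P) :
    esN i.1 ≤ (2 - kap) * Real.log P + Real.log 2 := by
  simp only [H739.Wst, mem_filter, mem_range, Nat.lt_succ_iff] at h
  exact es_le_of hP (typ_gt ⟨i.1, i.2⟩) h.1

/-- **`lo2` of `H92.PPair`** for the low sites of the integer side -/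
theorem lo2_site {kap : ℝ} (hP : 0 < P) (i : Si K0 C1 P) (h : i.1 ∉ H739.Wst K0 kap P) :
    (2 - kap) * Real.log P < esN i.1 := by
  have h1 := H860.mem_Typ.1 i.2
  refine lt_es_of hP (typ_gt ⟨i.1, i.2⟩).le fun h2 => h ?_
  simp only [H739.Wst, mem_filter, mem_range, Nat.lt_succ_iff]
  exact ⟨h2, h1.2⟩

end Vale.Agent.P042.H883
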